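import Mathlib

/-!
S0485 (block sensitivity versus sensitivity): shared definitions (owner helper7).
-/

set_option autoImplicit false

namespace BSS

open Finset

/-- flip one coordinate -/
def flip {I : Type*} [DecidableEq I] (x : I → Bool) (i : I) : I → Bool :=
  Function.update x i (!(x i))

open Classical in
/-- coordinates of value `c` whose flip enters the event `E` -/
noncomputable def En {I : Type*} [Fintype I] [DecidableEq I] (E : (I → Bool) → Prop)
    (x : I → Bool) (c : Bool) : Finset I :=
  univ.filter fun i => x i = c ∧ ¬ E x ∧ E (flip x i)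

open Classical in
/-- coordinates of value `c` whose flip leaves the event `E` -/
noncomputable def Ex {I : Type*} [Fintype I] [DecidableEq I] (E : (I → Bool) → Prop)
    (x : I → Bool) (c : Bool) : Finset I :=
  univ.filter fun i => x i = c ∧ E x ∧ ¬ E (flip x i)

/-- base function for the amplification -/
structure Base {I : Type} [Fintype I] [DecidableEq I] (f : (I → Bool) → Prop) (m : ℕ)
    (σ θ : ℝ) : Prop where
  zero : ¬ f fun _ => false
  blocks : ∃ B : Fin m → Finset I, (∀ k l, k ≠ l → Disjoint (B k) (B l)) ∧
    ∀ k, f fun i => decide (i ∈ B k)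
  in0 : ∀ x, ((En f x false).card : ℝ) + (En f x true).card / θ ≤ σ
  in1 : ∀ x, ((Ex f x true).card : ℝ) + θ * (Ex f x false).card ≤ σ

/-- regular tournaments -/
structure IsTour {T : Type*} (out : T → Finset T) (d : ℕ) : Prop where
  total : ∀ i j, i ≠ j → j ∈ out i ∨ i ∈ out j
  irrefl : ∀ i, i ∉ out i
  card : ∀ i, (out i).card ≤ d

/-- slices -/
def sl {T I : Type*} (X : T × I → Bool) (a : T) : I → Bool := fun t => X (a, t)

/-- tournament composition of events -/
def G {T I : Type*} (out : T → Finset T) (E E' : (I → Bool) → Prop) (X : T × I → Bool) : Prop :=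
  ∃ a, E (sl X a) ∧ ∀ b ∈ out a, ¬ E' (sl X b)

/-- level of block `j` (number of ones among its 4 bits) -/
def lev {T : Type*} (x : T × Fin 4 → Bool) (j : T) : ℕ :=
  (univ.filter fun t : Fin 4 => x (j, t) = true).card

/-- some block of level at least `h` such that all blocks beaten by it have level at most `β` -/
def P {T : Type*} (out : T → Finset T) (h β : ℕ) (x : T × Fin 4 → Bool) : Prop :=
  ∃ j, h ≤ lev x j ∧ ∀ k ∈ out j, lev x k ≤ β

/-- the three events of one copy -/
def E0 {T : Type*} (out : T → Finset T) : (T × Fin 4 → Bool) → Prop := P out 4 0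

def E1 {T : Type*} (out : T → Finset T) : (T × Fin 4 → Bool) → Prop := P out 4 1

def E2 {T : Type*} (out : T → Finset T) : (T × Fin 4 → Bool) → Prop :=
  fun x => P out 4 2 x ∨ P out 3 1 x ∨ P out 2 0 x

end BSS
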