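import Mathlib
import Crest.Agent.BSS.Defs

/-!
S0485: counting flips of tournament compositions (owner helper7).
-/

set_option autoImplicit false

namespace BSS

open Finset

section basic

variable {I : Type*} [Fintype I] [DecidableEq I] {E E' : (I → Bool) → Prop} {c : Bool}

theorem mem_En {x : I → Bool} {i : I} :
    i ∈ En E x c ↔ x i = c ∧ ¬ E x ∧ E (flip x i) := by
  classical
  simp [En]

theorem mem_Ex {x : I → Bool} {i : I} :
    i ∈ Ex E x c ↔ x i = c ∧ E x ∧ ¬ E (flip x i) := by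
  classical
  simp [Ex]

theorem En_eq_empty_of {x : I → Bool} (h : E x) : En E x c = ∅ := by
  ext i
  simp [mem_En, h]

theorem Ex_eq_empty_of {x : I → Bool} (h : ¬ E x) : Ex E x c = ∅ := by
  ext i
  simp [mem_Ex, h]

variable {T : Type*} [DecidableEq T]

theorem sl_flip_self (X : T × I → Bool) (b : T) (t : I) :
    sl (flip X (b, t)) b = flip (sl X b) t := by
  funext s
  unfold sl flip
  by_cases h : s = t
  · subst h; simp
  · rw [Function.update_of_ne h, Function.update_of_ne]
    exact fun hh => h (Prod.mk.inj hh).2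

theorem sl_flip_ne (X : T × I → Bool) (b : T) (t : I) {a : T} (h : a ≠ b) :
    sl (flip X (b, t)) a = sl X a := by
  funext s
  unfold sl flip
  rw [Function.update_of_ne]
  exact fun hh => h (Prod.mk.inj hh).1

end basic

section tour

variable {T I : Type*} [Fintype T] [DecidableEq T] [Fintype I] [DecidableEq I]
  {out : T → Finset T} {d : ℕ} {E E' : (I → Bool) → Prop}

/-- flips leaving a tournament composition, for a given winner `a` -/
theorem card_Ex_G_le (hirr : ∀ i, i ∉ out i) (X : T × I → Bool) (c : Bool) (a : T)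
    (ha : E (sl X a)) (hb : ∀ b ∈ out a, ¬ E' (sl X b)) :
    (Ex (G out E E') X c).card ≤
      (Ex E (sl X a) c).card + ∑ b ∈ out a, (En E' (sl X b) c).card := by
  classical
  have hsub : Ex (G out E E') X c ⊆
      (Ex E (sl X a) c).image (fun t => (a, t)) ∪
        (out a).biUnion fun b => (En E' (sl X b) c).image fun t => (b, t) := by
    rintro ⟨b, t⟩ hbt
    rw [mem_Ex] at hbt
    obtain ⟨h1, -, h3⟩ := hbt
    rw [mem_union]
    by_cases hab : b = a
    · subst hab
      left
      refine mem_image.2 ⟨t, ?_, rfl⟩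
      rw [mem_Ex]
      refine ⟨h1, ha, fun h4 => h3 ⟨b, ?_, ?_⟩⟩
      · rw [sl_flip_self]; exact h4
      · intro b' hb'
        rw [sl_flip_ne]
        · exact hb b' hb'
        · rintro rfl; exact hirr _ hb'
    · right
      by_cases hout : b ∈ out a
      · refine mem_biUnion.2 ⟨b, hout, mem_image.2 ⟨t, ?_, rfl⟩⟩
        rw [mem_En]
        refine ⟨h1, hb b hout, ?_⟩
        by_contra h4
        refine h3 ⟨a, ?_, ?_⟩
        · rw [sl_flip_ne _ _ _ (Ne.symm hab)]; exact ha
        · intro b' hb'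
          by_cases hbb : b' = b
          · subst hbb; rw [sl_flip_self]; exact h4
          · rw [sl_flip_ne _ _ _ hbb]; exact hb b' hb'
      · exfalso
        refine h3 ⟨a, ?_, ?_⟩
        · rw [sl_flip_ne _ _ _ (Ne.symm hab)]; exact ha
        · intro b' hb'
          rw [sl_flip_ne]
          · exact hb b' hb'
          · rintro rfl; exact hout hb'
  calc (Ex (G out E E') X c).card ≤ _ := card_le_card hsub
    _ ≤ _ := card_union_le _ _
    _ ≤ _ := by
      refine Nat.add_le_add card_image_le (card_biUnion_le.trans ?_)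
      exact sum_le_sum fun b _ => card_image_le

/-- uniform version -/
theorem card_Ex_G_le' (hT : IsTour out d) (X : T × I → Bool) (c : Bool) (α β : ℕ)
    (hα : ∀ x, (Ex E x c).card ≤ α) (hβ : ∀ x, (En E' x c).card ≤ β) :
    (Ex (G out E E') X c).card ≤ α + d * β := by
  by_cases h : G out E E' X
  · obtain ⟨a, ha, hb⟩ := h
    refine (card_Ex_G_le hT.irrefl X c a ha hb).trans (Nat.add_le_add (hα _) ?_)
    calc ∑ b ∈ out a, (En E' (sl X b) c).card ≤ ∑ _b ∈ out a, β := sum_le_sum fun b _ => hβ _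
      _ = (out a).card * β := by rw [sum_const, smul_eq_mul]
      _ ≤ d * β := Nat.mul_le_mul_right _ (hT.card a)
  · rw [Ex_eq_empty_of h]; simp

theorem En_G_cases (hirr : ∀ i, i ∉ out i) (X : T × I → Bool) (c : Bool) {b : T} {t : I}
    (h : (b, t) ∈ En (G out E E') X c) :
    ((∀ b' ∈ out b, ¬ E' (sl X b')) ∧ t ∈ En E (sl X b) c) ∨
      ∃ a, E (sl X a) ∧ b ∈ out a ∧ (∀ b' ∈ out a, b' ≠ b → ¬ E' (sl X b')) ∧
        t ∈ Ex E' (sl X b) c := by
  rw [mem_En] at h
  obtain ⟨h1, h2, a, h3, h4⟩ := h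
  by_cases hab : a = b
  · subst hab
    left
    have h5 : ∀ b' ∈ out a, ¬ E' (sl X b') := by
      intro b' hb'
      have := h4 b' hb'
      rwa [sl_flip_ne] at this
      rintro rfl; exact hirr _ hb'
    refine ⟨h5, ?_⟩
    rw [mem_En]
    rw [sl_flip_self] at h3
    exact ⟨h1, fun h6 => h2 ⟨a, h6, h5⟩, h3⟩
  · right
    rw [sl_flip_ne _ _ _ hab] at h3
    have h5 : ∀ b' ∈ out a, b' ≠ b → ¬ E' (sl X b') := by
      intro b' hb' hne
      have := h4 b' hb'
      rwa [sl_flip_ne _ _ _ hne] at this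
    have h6 : b ∈ out a := by
      by_contra h6
      exact h2 ⟨a, h3, fun b' hb' => h5 b' hb' (by rintro rfl; exact h6 hb')⟩
    have h7 : E' (sl X b) := by
      by_contra h7
      refine h2 ⟨a, h3, fun b' hb' => ?_⟩
      by_cases hne : b' = b
      · subst hne; exact h7
      · exact h5 b' hb' hne
    refine ⟨a, h3, h6, h5, ?_⟩
    rw [mem_Ex]
    have := h4 b h6
    rw [sl_flip_self] at this
    exact ⟨h1, h7, this⟩

open Classical in
/-- type A of entries -/
noncomputable def Aset (out : T → Finset T) (E E' : (I → Bool) → Prop) (X : T × I → Bool)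
    (c : Bool) : Finset T :=
  univ.filter fun b => (∀ b' ∈ out b, ¬ E' (sl X b')) ∧ (En E (sl X b) c).Nonempty

open Classical in
/-- type B of entries -/
noncomputable def Bset (out : T → Finset T) (E E' : (I → Bool) → Prop) (X : T × I → Bool)
    (c : Bool) : Finset T :=
  univ.filter fun b => ∃ a, E (sl X a) ∧ b ∈ out a ∧
    (∀ b' ∈ out a, b' ≠ b → ¬ E' (sl X b')) ∧ (Ex E' (sl X b) c).Nonempty

theorem mem_Aset {X : T × I → Bool} {c : Bool} {b : T} : b ∈ Aset out E E' X c ↔
    (∀ b' ∈ out b, ¬ E' (sl X b')) ∧ (En E (sl X b) c).Nonempty := by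
  classical
  simp [Aset]

theorem mem_Bset {X : T × I → Bool} {c : Bool} {b : T} : b ∈ Bset out E E' X c ↔
    ∃ a, E (sl X a) ∧ b ∈ out a ∧
    (∀ b' ∈ out a, b' ≠ b → ¬ E' (sl X b')) ∧ (Ex E' (sl X b) c).Nonempty := by
  classical
  simp [Bset]

theorem card_En_G_le (hirr : ∀ i, i ∉ out i) (X : T × I → Bool) (c : Bool) :
    (En (G out E E') X c).card ≤ ∑ b ∈ Aset out E E' X c, (En E (sl X b) c).card +
      ∑ b ∈ Bset out E E' X c, (Ex E' (sl X b) c).card := by
  classical
  have hsub : En (G out E E') X c ⊆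
      ((Aset out E E' X c).biUnion fun b => (En E (sl X b) c).image fun t => (b, t)) ∪
        (Bset out E E' X c).biUnion fun b => (Ex E' (sl X b) c).image fun t => (b, t) := by
    rintro ⟨b, t⟩ hbt
    rw [mem_union]
    rcases En_G_cases hirr X c hbt with ⟨h1, h2⟩ | ⟨a, h1, h2, h3, h4⟩
    · left
      exact mem_biUnion.2 ⟨b, mem_Aset.2 ⟨h1, t, h2⟩, mem_image.2 ⟨t, h2, rfl⟩⟩
    · right
      exact mem_biUnion.2 ⟨b, mem_Bset.2 ⟨a, h1, h2, h3, t, h4⟩, mem_image.2 ⟨t, h4, rfl⟩⟩
  calc (En (G out E E') X c).card ≤ _ := card_le_card hsub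
    _ ≤ _ := card_union_le _ _
    _ ≤ _ := by
      refine Nat.add_le_add (card_biUnion_le.trans ?_) (card_biUnion_le.trans ?_)
      · exact sum_le_sum fun b _ => card_image_le
      · exact sum_le_sum fun b _ => card_image_le

/-- the elements of `Aset` which lie in `E'` : at most one -/
theorem Aset_unique (hT : IsTour out d) {X : T × I → Bool} {c : Bool} {a b : T}
    (ha : a ∈ Aset out E E' X c) (hb : b ∈ Aset out E E' X c) (ha' : E' (sl X a))
    (hb' : E' (sl X b)) : a = b := by
  by_contra hab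
  rcases hT.total a b hab with h | h
  · exact (mem_Aset.1 ha).1 b h hb'
  · exact (mem_Aset.1 hb).1 a h ha'

theorem Aset_card_le_one (hT : IsTour out d) (X : T × I → Bool) (c : Bool)
    (h : ∀ x, (En E x c).Nonempty → E' x) : (Aset out E E' X c).card ≤ 1 := by
  rw [card_le_one]
  intro a ha b hb
  exact Aset_unique hT ha hb (h _ (mem_Aset.1 ha).2) (h _ (mem_Aset.1 hb).2)

/-- comparison of two elements of `Bset` -/
theorem Bset_witness (hT : IsTour out d) (hEE : ∀ x, E x → E' x) {X : T × I → Bool} {a b a' b' : T}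
    (ha : E (sl X a)) (hb2 : ∀ k ∈ out a, k ≠ b → ¬ E' (sl X k))
    (ha' : E (sl X a')) (hb2' : ∀ k ∈ out a', k ≠ b' → ¬ E' (sl X k)) (hne : a ≠ a') :
    a' = b ∨ a = b' := by
  rcases hT.total a a' hne with h | h
  · left
    by_contra h2
    exact hb2 a' h h2 (hEE _ ha')
  · right
    by_contra h2
    exact hb2' a h h2 (hEE _ ha)

/-- elements of `Bset` outside `E` : at most one -/
theorem Bset_unique (hT : IsTour out d) (hEE : ∀ x, E x → E' x) {X : T × I → Bool} {c : Bool}
    {b b' : T} (hb : b ∈ Bset out E E' X c) (hb' : b' ∈ Bset out E E' X c)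
    (h : ¬ E (sl X b)) (h' : ¬ E (sl X b')) : b = b' := by
  obtain ⟨a, h1, h2, h3, h4⟩ := mem_Bset.1 hb
  obtain ⟨a', h1', h2', h3', h4'⟩ := mem_Bset.1 hb'
  by_cases hne : a = a'
  · subst hne
    by_contra hbb
    obtain ⟨t, ht⟩ := h4
    exact h3' b h2 hbb (mem_Ex.1 ht).2.1
  · rcases Bset_witness hT hEE h1 h3 h1' h3' hne with h5 | h5
    · subst h5; exact absurd h1' h
    · subst h5; exact absurd h1 h'

theorem Bset_card_le_one (hT : IsTour out d) (hEE : ∀ x, E x → E' x) (X : T × I → Bool)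
    (c : Bool) (h : ∀ x, E x → Ex E' x c = ∅) : (Bset out E E' X c).card ≤ 1 := by
  rw [card_le_one]
  have key : ∀ b ∈ Bset out E E' X c, ¬ E (sl X b) := by
    intro b hb hE
    obtain ⟨a, h1, h2, h3, h4⟩ := mem_Bset.1 hb
    rw [h _ hE] at h4
    simp at h4
  intro a ha b hb
  exact Bset_unique hT hEE ha hb (key a ha) (key b hb)

theorem Bset_card_le_three (hT : IsTour out d) (hEE : ∀ x, E x → E' x) (X : T × I → Bool)
    (c : Bool) : (Bset out E E' X c).card ≤ 3 := by
  classical
  -- choose witnesses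
  have hw : ∀ b ∈ Bset out E E' X c, ∃ a, E (sl X a) ∧ b ∈ out a ∧
      (∀ b' ∈ out a, b' ≠ b → ¬ E' (sl X b')) ∧ E' (sl X b) := by
    intro b hb
    obtain ⟨a, h1, h2, h3, t, ht⟩ := mem_Bset.1 hb
    exact ⟨a, h1, h2, h3, (mem_Ex.1 ht).2.1⟩
  choose! w hw1 hw2 hw3 hw4 using hw
  set B := Bset out E E' X c with hB
  -- injectivity of w
  have hinj : ∀ b ∈ B, ∀ b' ∈ B, w b = w b' → b = b' := by
    intro b hb b' hb' h
    by_contra hne
    exact hw3 b hb b' (h ▸ hw2 b' hb') (Ne.symm hne) (hw4 b' hb')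
  -- each off-diagonal pair is covered
  have hcov : B.offDiag ⊆ ((B ×ˢ B).filter fun q => w q.2 = q.1) ∪
      ((B ×ˢ B).filter fun q => w q.1 = q.2) := by
    rintro ⟨b, b'⟩ hq
    rw [mem_offDiag] at hq
    obtain ⟨hb, hb', hne⟩ := hq
    have hww : w b ≠ w b' := fun h => hne (hinj b hb b' hb' h)
    rw [mem_union, mem_filter, mem_filter, mem_product]
    rcases Bset_witness hT hEE (hw1 b hb) (hw3 b hb) (hw1 b' hb') (hw3 b' hb') hww with h | h
    · left; exact ⟨⟨hb, hb'⟩, h⟩
    · right; exact ⟨⟨hb, hb'⟩, h⟩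
  have h1 : ((B ×ˢ B).filter fun q => w q.2 = q.1).card ≤ B.card := by
    refine card_le_card_of_injOn (fun q => q.2) ?_ ?_
    · intro q hq
      simp only [coe_filter, mem_product, Set.mem_setOf_eq] at hq
      exact hq.1.2
    · rintro ⟨x, y⟩ hq ⟨x', y'⟩ hq' h
      simp only [coe_filter, mem_product, Set.mem_setOf_eq] at hq hq' h
      subst h
      rw [← hq.2, ← hq'.2]
  have h2 : ((B ×ˢ B).filter fun q => w q.1 = q.2).card ≤ B.card := by
    refine card_le_card_of_injOn (fun q => q.1) ?_ ?_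
    · intro q hq
      simp only [coe_filter, mem_product, Set.mem_setOf_eq] at hq
      exact hq.1.1
    · rintro ⟨x, y⟩ hq ⟨x', y'⟩ hq' h
      simp only [coe_filter, mem_product, Set.mem_setOf_eq] at hq hq' h
      subst h
      rw [← hq.2, ← hq'.2]
  have h3 : B.offDiag.card ≤ 2 * B.card := by
    refine (card_le_card hcov).trans ((card_union_le _ _).trans ?_)
    omega
  rw [offDiag_card] at h3
  by_contra h4
  push Not at h4
  have h5 : 4 ≤ B.card := h4
  have h6 : B.card * B.card ≤ 3 * B.card := by omega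
  nlinarith

end tour

end BSS
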