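import Mathlib
import Crest.Agent.BSS.Defs
import Crest.Agent.BSS.Tour
import Crest.Prelude.Def_Sensitivity

/-!
S0485: composition, iteration, transfer to `Fin n` (owner helper7).
-/

set_option autoImplicit false

namespace BSS

open Finset

/-- sensitive coordinates -/
def sens {I : Type*} [Fintype I] [DecidableEq I] (F : (I → Bool) → Bool) (x : I → Bool) :
    Finset I :=
  univ.filter fun i => F (flip x i) ≠ F x

theorem mem_sens {I : Type*} [Fintype I] [DecidableEq I] {F : (I → Bool) → Bool}
    {x : I → Bool} {i : I} : i ∈ sens F x ↔ F (flip x i) ≠ F x := by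
  simp [sens]

structure Iter {I : Type} [Fintype I] [DecidableEq I] (F : (I → Bool) → Bool) (M : ℕ)
    (a θ : ℝ) : Prop where
  zero : F (fun _ => false) = false
  blocks : ∃ B : Fin M → Finset I, (∀ k l, k ≠ l → Disjoint (B k) (B l)) ∧
    ∀ k, F (fun i => decide (i ∈ B k)) = true
  s0 : ∀ x, F x = false → ((sens F x).card : ℝ) ≤ a
  s1 : ∀ x, F x = true → ((sens F x).card : ℝ) ≤ a / θ

theorem iter_zero {θ : ℝ} (hθ : 0 < θ) :
    Iter (fun x : Unit → Bool => x ()) 1 (1 + θ) θ := by
  have hc : ∀ x : Unit → Bool, ((sens (fun x : Unit → Bool => x ()) x).card : ℝ) ≤ 1 := by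
    intro x
    have : (sens (fun x : Unit → Bool => x ()) x).card ≤ 1 := by
      refine (card_le_univ _).trans ?_
      simp
    exact_mod_cast this
  refine ⟨rfl, ⟨fun _ => {()}, ?_, ?_⟩, fun x _ => (hc x).trans (by linarith), fun x _ =>
    (hc x).trans ?_⟩
  · intro k l hkl
    exact absurd (Subsingleton.elim k l) hkl
  · intro k; simp
  · rw [le_div_iff₀ hθ]; linarith

theorem flip_eq_of_ne {I : Type*} [DecidableEq I] {x y : I → Bool} {i : I}
    (h1 : ∀ j, j ≠ i → y j = x j) (h2 : y i ≠ x i) : y = flip x i := by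
  funext j
  by_cases h : j = i
  · subst h
    unfold flip
    rw [Function.update_self]
    cases hx : x j <;> cases hy : y j <;> simp_all
  · unfold flip
    rw [Function.update_of_ne h]
    exact h1 j h

open Classical in
theorem iter_succ {I : Type} [Fintype I] [DecidableEq I] {f : (I → Bool) → Prop} {m : ℕ}
    {σ θ : ℝ} (hb : Base f m σ θ) (hθ : 0 < θ) {I' : Type} [Fintype I'] [DecidableEq I']
    {F : (I' → Bool) → Bool} {M : ℕ} {a : ℝ} (ha : 0 ≤ a) (hF : Iter F M a θ) :
    Iter (fun X : I × I' → Bool => decide (f fun i => F (sl X i))) (m * M) (σ * a) θ := by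
  -- the sensitive coordinates
  have key : ∀ (X : I × I' → Bool) (i : I) (t : I'),
      (i, t) ∈ sens (fun X : I × I' → Bool => decide (f fun i => F (sl X i))) X →
      t ∈ sens F (sl X i) ∧
        ((¬ f (fun i => F (sl X i)) ∧ f (flip (fun i => F (sl X i)) i)) ∨
          (f (fun i => F (sl X i)) ∧ ¬ f (flip (fun i => F (sl X i)) i))) := by
    intro X i t h
    rw [mem_sens] at h
    have h1 : ∀ j, j ≠ i → (fun i => F (sl (flip X (i, t)) i)) j = (fun i => F (sl X i)) j ∨
        True := fun j _ => Or.inr trivial
    have h2 : ∀ j, j ≠ i → F (sl (flip X (i, t)) j) = F (sl X j) := by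
      intro j hj
      rw [sl_flip_ne _ _ _ hj]
    have h3 : F (sl (flip X (i, t)) i) = F (flip (sl X i) t) := by rw [sl_flip_self]
    have h4 : t ∈ sens F (sl X i) := by
      rw [mem_sens]
      intro h5
      apply h
      have : (fun j => F (sl (flip X (i, t)) j)) = fun j => F (sl X j) := by
        funext j
        by_cases hj : j = i
        · subst hj; rw [h3, h5]
        · exact h2 j hj
      rw [this]
    have h6 : (fun j => F (sl (flip X (i, t)) j)) = flip (fun j => F (sl X j)) i := by
      refine flip_eq_of_ne h2 ?_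
      rw [h3]
      exact mem_sens.1 h4
    refine ⟨h4, ?_⟩
    rw [h6] at h
    by_cases hf : f fun i => F (sl X i)
    · right
      refine ⟨hf, fun hf2 => h ?_⟩
      simp [hf, hf2]
    · left
      refine ⟨hf, ?_⟩
      by_contra hf2
      exact h (by simp [hf, hf2])
  have hcard : ∀ (X : I × I' → Bool) (S₀ S₁ : Finset I),
      (∀ i ∈ S₀, F (sl X i) = false) → (∀ i ∈ S₁, F (sl X i) = true) →
      (∀ i t, (i, t) ∈ sens (fun X : I × I' → Bool => decide (f fun i => F (sl X i))) X →
        i ∈ S₀ ∪ S₁) →
      ((sens (fun X : I × I' → Bool => decide (f fun i => F (sl X i))) X).card : ℝ) ≤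
        S₀.card * a + S₁.card * (a / θ) := by
    intro X S₀ S₁ h0 h1 h2
    have hsub : sens (fun X : I × I' → Bool => decide (f fun i => F (sl X i))) X ⊆
        (S₀.biUnion fun i => (sens F (sl X i)).image fun t => (i, t)) ∪
        (S₁.biUnion fun i => (sens F (sl X i)).image fun t => (i, t)) := by
      rintro ⟨i, t⟩ h
      have h3 := (key X i t h).1
      rw [mem_union]
      rcases mem_union.1 (h2 i t h) with h4 | h4
      · left; exact mem_biUnion.2 ⟨i, h4, mem_image.2 ⟨t, h3, rfl⟩⟩
      · right; exact mem_biUnion.2 ⟨i, h4, mem_image.2 ⟨t, h3, rfl⟩⟩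
    have h5 : (sens (fun X : I × I' → Bool => decide (f fun i => F (sl X i))) X).card ≤
        ∑ i ∈ S₀, (sens F (sl X i)).card + ∑ i ∈ S₁, (sens F (sl X i)).card := by
      refine (card_le_card hsub).trans ((card_union_le _ _).trans ?_)
      refine Nat.add_le_add (card_biUnion_le.trans ?_) (card_biUnion_le.trans ?_)
      · exact sum_le_sum fun b _ => card_image_le
      · exact sum_le_sum fun b _ => card_image_le
    calc ((sens (fun X : I × I' → Bool => decide (f fun i => F (sl X i))) X).card : ℝ)
        ≤ ((∑ i ∈ S₀, (sens F (sl X i)).card + ∑ i ∈ S₁, (sens F (sl X i)).card : ℕ) : ℝ) := by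
          exact_mod_cast h5
      _ = ∑ i ∈ S₀, ((sens F (sl X i)).card : ℝ) + ∑ i ∈ S₁, ((sens F (sl X i)).card : ℝ) := by
          push_cast; rfl
      _ ≤ ∑ _i ∈ S₀, a + ∑ _i ∈ S₁, (a / θ) := by
          refine add_le_add (sum_le_sum fun i hi => hF.s0 _ (h0 i hi))
            (sum_le_sum fun i hi => hF.s1 _ (h1 i hi))
      _ = _ := by rw [sum_const, sum_const, nsmul_eq_mul, nsmul_eq_mul]
  refine ⟨?_, ?_, ?_, ?_⟩
  · have : (fun i : I => F (sl (fun _ : I × I' => false) i)) = fun _ => false := by
      funext i; exact hF.zero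
    rw [this]
    simpa using hb.zero
  · obtain ⟨B, hB1, hB2⟩ := hb.blocks
    obtain ⟨D, hD1, hD2⟩ := hF.blocks
    refine ⟨fun k => B (finProdFinEquiv.symm k).1 ×ˢ D (finProdFinEquiv.symm k).2, ?_, ?_⟩
    · intro k l hkl
      have h1 : finProdFinEquiv.symm k ≠ finProdFinEquiv.symm l := fun h =>
        hkl (finProdFinEquiv.symm.injective h)
      rw [disjoint_product]
      by_cases h2 : (finProdFinEquiv.symm k).1 = (finProdFinEquiv.symm l).1
      · right
        exact hD1 _ _ fun h3 => h1 (Prod.ext h2 h3)
      · left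
        exact hB1 _ _ h2
    · intro k
      set k₁ := (finProdFinEquiv.symm k).1
      set k₂ := (finProdFinEquiv.symm k).2
      have : (fun i : I => F (sl (fun q : I × I' => decide (q ∈ B k₁ ×ˢ D k₂)) i)) =
          fun i => decide (i ∈ B k₁) := by
        funext i
        by_cases hi : i ∈ B k₁
        · have h1 : sl (fun q : I × I' => decide (q ∈ B k₁ ×ˢ D k₂)) i =
              fun t => decide (t ∈ D k₂) := by
            funext t
            simp [sl, hi]
          rw [h1, hD2]
          simp [hi]
        · have h1 : sl (fun q : I × I' => decide (q ∈ B k₁ ×ˢ D k₂)) i =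
              fun _ => false := by
            funext t
            simp [sl, hi]
          rw [h1, hF.zero]
          simp [hi]
      rw [this]
      simpa using hB2 k₁
  · intro X hX
    have hX' : ¬ f fun i => F (sl X i) := by simpa using hX
    have h1 := hcard X (En f (fun i => F (sl X i)) false) (En f (fun i => F (sl X i)) true)
      (fun i hi => (mem_En.1 hi).1) (fun i hi => (mem_En.1 hi).1) (by
        intro i t h
        obtain ⟨-, h2 | h2⟩ := key X i t h
        · rw [mem_union, mem_En, mem_En]
          cases hc : F (sl X i)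
          · exact Or.inl ⟨rfl, h2⟩
          · exact Or.inr ⟨rfl, h2⟩
        · exact absurd h2.1 hX')
    have h2 := hb.in0 fun i => F (sl X i)
    calc _ ≤ _ := h1
      _ = a * (((En f (fun i => F (sl X i)) false).card : ℝ) +
          (En f (fun i => F (sl X i)) true).card / θ) := by ring
      _ ≤ a * σ := mul_le_mul_of_nonneg_left h2 ha
      _ = σ * a := mul_comm _ _
  · intro X hX
    have hX' : f fun i => F (sl X i) := by simpa using hX
    have h1 := hcard X (Ex f (fun i => F (sl X i)) false) (Ex f (fun i => F (sl X i)) true)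
      (fun i hi => (mem_Ex.1 hi).1) (fun i hi => (mem_Ex.1 hi).1) (by
        intro i t h
        obtain ⟨-, h2 | h2⟩ := key X i t h
        · exact absurd hX' h2.1
        · rw [mem_union, mem_Ex, mem_Ex]
          cases hc : F (sl X i)
          · exact Or.inl ⟨rfl, h2⟩
          · exact Or.inr ⟨rfl, h2⟩)
    have h2 := hb.in1 fun i => F (sl X i)
    calc _ ≤ _ := h1
      _ = a / θ * (((Ex f (fun i => F (sl X i)) true).card : ℝ) +
          θ * (Ex f (fun i => F (sl X i)) false).card) := by
          field_simp
          ring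
      _ ≤ a / θ * σ := mul_le_mul_of_nonneg_left h2 (by positivity)
      _ = σ * a / θ := by ring

open Classical in
theorem iter_exists {I : Type} [Fintype I] [DecidableEq I] {f : (I → Bool) → Prop} {m : ℕ}
    {σ θ : ℝ} (hb : Base f m σ θ) (hθ : 0 < θ) (hσ : 1 < σ) (k : ℕ) :
    ∃ (I' : Type) (_ : Fintype I') (_ : DecidableEq I') (F : (I' → Bool) → Bool),
      Iter F (m ^ k) (σ ^ k * (1 + θ)) θ := by
  induction k with
  | zero =>
    refine ⟨Unit, inferInstance, inferInstance, fun x => x (), ?_⟩
    simpa using iter_zero hθ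
  | succ k ih =>
    obtain ⟨I', i1, i2, F, hF⟩ := ih
    have h := iter_succ hb hθ (by positivity) hF
    refine ⟨I × I', inferInstance, inferInstance,
      fun X : I × I' → Bool => decide (f fun i => F (sl X i)), ?_⟩
    rw [pow_succ' m, pow_succ' σ, mul_assoc]
    exact h

open Crest.BoolCube in
/-- transfer to `Fin n` -/
theorem iter_transfer {I : Type} [Fintype I] [DecidableEq I] {F : (I → Bool) → Bool} {M : ℕ}
    {a θ : ℝ} (hF : Iter F M a θ) (hM : 1 ≤ M) :
    ∃ (n : ℕ) (f : (Fin n → Bool) → Bool), (∃ x y, f x ≠ f y) ∧ M ≤ blockSensitivity f ∧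
      (sensitivity f : ℝ) ≤ max a (a / θ) := by
  classical
  let e := Fintype.equivFin I
  let f : (Fin (Fintype.card I) → Bool) → Bool := fun y => F fun i => y (e i)
  obtain ⟨B, hB1, hB2⟩ := hF.blocks
  have hf0 : f (fun _ => false) = false := hF.zero
  have hfB : ∀ k, f (flipCoords (fun _ => false) ((B k).map e.toEmbedding)) = true := by
    intro k
    have : (fun i => flipCoords (fun _ => false) ((B k).map e.toEmbedding) (e i)) =
        fun i => decide (i ∈ B k) := by
      funext i
      unfold flipCoords
      simp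
    change F (fun i => flipCoords (fun _ => false) ((B k).map e.toEmbedding) (e i)) = true
    rw [this]
    exact hB2 k
  refine ⟨Fintype.card I, f, ⟨fun _ => false,
    flipCoords (fun _ => false) ((B ⟨0, hM⟩).map e.toEmbedding), ?_⟩, ?_, ?_⟩
  · rw [hf0, hfB]; simp
  · have h1 : M ≤ blockSensitivityAt f fun _ => false := by
      unfold blockSensitivityAt
      refine le_csSup ?_ ?_
      · refine ⟨Fintype.card I, ?_⟩
        rintro M' ⟨B', hB'1, hB'2, -⟩
        choose g hg using hB'1
        have hinj : Function.Injective g := by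
          intro i j hij
          by_contra hne
          have := hB'2 i j hne
          rw [disjoint_left] at this
          exact this (hg i) (hij ▸ hg j)
        have := Fintype.card_le_of_injective g hinj
        simpa using this
      · refine ⟨fun k => (B k).map e.toEmbedding, ?_, ?_, ?_⟩
        · intro k
          by_contra hne
          rw [not_nonempty_iff_eq_empty, map_eq_empty] at hne
          have h2 := hB2 k
          rw [hne] at h2
          simp only [notMem_empty, decide_false] at h2
          rw [hF.zero] at h2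
          simp at h2
        · intro i j hij
          rw [disjoint_map]
          exact hB1 i j hij
        · intro k
          rw [hfB, hf0]
          simp
    exact h1.trans (le_sup (f := blockSensitivityAt f) (mem_univ _))
  · obtain ⟨y, -, hy⟩ := exists_mem_eq_sup (univ : Finset (Fin (Fintype.card I) → Bool))
      ⟨fun _ => false, mem_univ _⟩ (sensitivityAt f)
    have h1 : sensitivity f = sensitivityAt f y := hy
    have h2 : sensitivityAt f y = (sens F fun i => y (e i)).card := by
      unfold sensitivityAt sens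
      have hmap : (univ.filter fun a : Fin (Fintype.card I) => f (flipCoords y {a}) ≠ f y) =
          (univ.filter fun i : I => F (flip (fun i => y (e i)) i) ≠ F fun i => y (e i)).map
            e.toEmbedding := by
        ext a
        rw [mem_map_equiv, mem_filter, mem_filter]
        have : (fun i => flipCoords y {a} (e i)) = flip (fun i => y (e i)) (e.symm a) := by
          funext i
          unfold flipCoords flip
          by_cases h : e i = a
          · subst h; simp
          · have h' : i ≠ e.symm a := fun hh => h (by rw [hh]; simp)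
            rw [Function.update_of_ne h']
            simp [h]
        simp only [mem_univ, true_and]
        change F (fun i => flipCoords y {a} (e i)) ≠ _ ↔ _
        rw [this]
      rw [hmap, card_map]
    rw [h1, h2]
    cases hc : F fun i => y (e i)
    · exact (hF.s0 _ hc).trans (le_max_left _ _)
    · exact (hF.s1 _ hc).trans (le_max_right _ _)

theorem amplify {I : Type} [Fintype I] [DecidableEq I] (f : (I → Bool) → Prop) (m : ℕ)
    (σ θ : ℝ) (hb : Base f m σ θ) (hθ : 0 < θ) (hσ : 1 < σ) (hm : σ ^ 2 < m) :
    ∃ α : ℝ, 2 < α ∧ ∀ N : ℕ, ∃ (n : ℕ) (f : (Fin n → Bool) → Bool),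
      (∃ x y, f x ≠ f y) ∧ N ≤ Crest.BoolCube.blockSensitivity f ∧
        (Crest.BoolCube.sensitivity f : ℝ) ^ α ≤ (Crest.BoolCube.blockSensitivity f : ℝ) := by
  have hlσ : 0 < Real.log σ := Real.log_pos hσ
  have hm1 : (1 : ℝ) < m := by nlinarith
  have hm2 : 2 ≤ m := by
    have : 1 < m := by exact_mod_cast hm1
    omega
  have hL : 2 * Real.log σ < Real.log m := by
    have := Real.log_lt_log (by positivity) hm
    rwa [Real.log_pow] at this
  set L := Real.log m / Real.log σ with hLdef
  have hL2 : 2 < L := by rw [hLdef, lt_div_iff₀ hlσ]; exact hL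
  have hσ0 : 0 < σ := by linarith
  refine ⟨(2 + L) / 2, by linarith, fun N => ?_⟩
  set α := (2 + L) / 2 with hα
  have hα0 : 0 < α := by linarith
  have hαL : α * Real.log σ < Real.log m := by
    have h1 : α < L := by linarith
    have h2 : L * Real.log σ = Real.log m := by rw [hLdef]; field_simp
    nlinarith
  have hσα : σ ^ α < m := by
    rw [← Real.log_lt_log_iff (by positivity) (by linarith), Real.log_rpow hσ0]
    exact hαL
  -- choose `k`
  set K := max (1 + θ) ((1 + θ) / θ) with hK
  have hK0 : 0 < K := lt_of_lt_of_le (by linarith) (le_max_left _ _)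
  have hratio : 1 < (m : ℝ) / σ ^ α := by
    rw [one_lt_div (by positivity)]; exact hσα
  obtain ⟨k₀, hk₀⟩ := pow_unbounded_of_one_lt (K ^ α) hratio
  set k := max k₀ N with hk
  have hk1 : K ^ α ≤ ((m : ℝ) / σ ^ α) ^ k :=
    hk₀.le.trans (pow_le_pow_right₀ hratio.le (le_max_left _ _))
  obtain ⟨I', i1, i2, F, hF⟩ := iter_exists hb hθ hσ k
  obtain ⟨n, g, hg1, hg2, hg3⟩ := iter_transfer hF (Nat.one_le_pow _ _ (by omega))
  refine ⟨n, g, hg1, ?_, ?_⟩
  · calc N ≤ k := le_max_right _ _
      _ ≤ m ^ k := (Nat.lt_pow_self (by omega)).le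
      _ ≤ _ := hg2
  · have h1 : max (σ ^ k * (1 + θ)) (σ ^ k * (1 + θ) / θ) = σ ^ k * K := by
      rw [hK, mul_max_of_nonneg _ _ (by positivity), mul_div_assoc]
    rw [h1] at hg3
    calc (Crest.BoolCube.sensitivity g : ℝ) ^ α ≤ (σ ^ k * K) ^ α :=
          Real.rpow_le_rpow (by positivity) hg3 hα0.le
      _ = (σ ^ α) ^ k * K ^ α := by
          rw [Real.mul_rpow (by positivity) hK0.le, ← Real.rpow_natCast σ k,
            ← Real.rpow_mul hσ0.le, mul_comm (k : ℝ) α, Real.rpow_mul hσ0.le,
            Real.rpow_natCast]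
      _ ≤ (σ ^ α) ^ k * ((m : ℝ) / σ ^ α) ^ k := by gcongr
      _ = (m : ℝ) ^ k := by
          rw [← mul_pow]
          congr 1
          field_simp
      _ = ((m ^ k : ℕ) : ℝ) := by push_cast; rfl
      _ ≤ _ := by exact_mod_cast hg2

end BSS
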