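import Mathlib
import Crest.Agent.BSS.Defs
import Crest.Agent.BSS.Tour

/-!
S0485: the events of one copy (owner helper7).
-/

set_option autoImplicit false

namespace BSS

open Finset

section lev

variable {T : Type*} [DecidableEq T]

theorem lev_le_four (x : T × Fin 4 → Bool) (j : T) : lev x j ≤ 4 := by
  have h := card_filter_le (univ : Finset (Fin 4)) fun t => x (j, t) = true
  simpa [lev] using h

theorem lev_flip_ne (x : T × Fin 4 → Bool) {j k : T} (t : Fin 4) (h : k ≠ j) :
    lev (flip x (j, t)) k = lev x k := by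
  unfold lev flip
  congr 1
  ext s
  rw [mem_filter, mem_filter, Function.update_of_ne]
  exact fun hh => h (Prod.mk.inj hh).1

theorem lev_flip_false (x : T × Fin 4 → Bool) {j : T} {t : Fin 4} (h : x (j, t) = false) :
    lev (flip x (j, t)) j = lev x j + 1 := by
  unfold lev
  have : (univ.filter fun s : Fin 4 => flip x (j, t) (j, s) = true) =
      insert t (univ.filter fun s : Fin 4 => x (j, s) = true) := by
    ext s
    rw [mem_insert, mem_filter, mem_filter]
    by_cases hs : s = t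
    · subst hs; simp [flip, h]
    · have : flip x (j, t) (j, s) = x (j, s) := by
        unfold flip
        rw [Function.update_of_ne]
        exact fun hh => hs (Prod.mk.inj hh).2
      simp [this, hs]
  rw [this, card_insert_of_notMem]
  simp [h]

theorem lev_flip_true (x : T × Fin 4 → Bool) {j : T} {t : Fin 4} (h : x (j, t) = true) :
    lev (flip x (j, t)) j + 1 = lev x j := by
  unfold lev
  have : (univ.filter fun s : Fin 4 => x (j, s) = true) =
      insert t (univ.filter fun s : Fin 4 => flip x (j, t) (j, s) = true) := by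
    ext s
    rw [mem_insert, mem_filter, mem_filter]
    by_cases hs : s = t
    · subst hs; simp [h]
    · have : flip x (j, t) (j, s) = x (j, s) := by
        unfold flip
        rw [Function.update_of_ne]
        exact fun hh => hs (Prod.mk.inj hh).2
      simp [this, hs]
  rw [this, card_insert_of_notMem]
  simp [flip, h]

theorem lev_le_flip_false (x : T × Fin 4 → Bool) {j : T} {t : Fin 4} (h : x (j, t) = false)
    (k : T) : lev x k ≤ lev (flip x (j, t)) k ∧ lev (flip x (j, t)) k ≤ lev x k + 1 := by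
  by_cases hk : k = j
  · subst hk; rw [lev_flip_false x h]; omega
  · rw [lev_flip_ne x t hk]; omega

theorem lev_le_flip_true (x : T × Fin 4 → Bool) {j : T} {t : Fin 4} (h : x (j, t) = true)
    (k : T) : lev (flip x (j, t)) k ≤ lev x k ∧ lev x k ≤ lev (flip x (j, t)) k + 1 := by
  by_cases hk : k = j
  · subst hk; have := lev_flip_true x h; omega
  · rw [lev_flip_ne x t hk]; omega

/-- number of zero bits of a block -/
theorem card_zero (x : T × Fin 4 → Bool) (j : T) :
    (univ.filter fun t : Fin 4 => x (j, t) = false).card = 4 - lev x j := by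
  have h := card_filter_add_card_filter_not (s := (univ : Finset (Fin 4)))
    (fun t => x (j, t) = true)
  simp only [Bool.not_eq_true, card_univ, Fintype.card_fin] at h
  unfold lev
  omega

end lev

section P

variable {T : Type*} [Fintype T] [DecidableEq T] {out : T → Finset T} {d : ℕ} {h β : ℕ}

theorem P_mono {h' β' : ℕ} (hh : h' ≤ h) (hβ : β ≤ β') {x : T × Fin 4 → Bool}
    (hP : P out h β x) : P out h' β' x := by
  obtain ⟨j, h1, h2⟩ := hP
  exact ⟨j, hh.trans h1, fun k hk => (h2 k hk).trans hβ⟩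

theorem P_flip_false {x : T × Fin 4 → Bool} (hP : P out h β x) {q : T × Fin 4}
    (hq : x q = false) : P out h (β + 1) (flip x q) := by
  obtain ⟨j, h1, h2⟩ := hP
  obtain ⟨i, t⟩ := q
  refine ⟨j, h1.trans (lev_le_flip_false x hq j).1, fun k hk => ?_⟩
  have := (lev_le_flip_false x hq k).2
  have := h2 k hk
  omega

theorem P_flip_true {x : T × Fin 4 → Bool} (hP : P out (h + 1) β x) {q : T × Fin 4}
    (hq : x q = true) : P out h β (flip x q) := by
  obtain ⟨j, h1, h2⟩ := hP
  obtain ⟨i, t⟩ := q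
  refine ⟨j, ?_, fun k hk => (lev_le_flip_true x hq k).1.trans (h2 k hk)⟩
  have := (lev_le_flip_true x hq j).2
  omega

theorem En_P_false (hirr : ∀ i, i ∉ out i) {x : T × Fin 4 → Bool} {j : T} {t : Fin 4}
    (hm : (j, t) ∈ En (P out h β) x false) :
    x (j, t) = false ∧ lev x j + 1 = h ∧ ∀ k ∈ out j, lev x k ≤ β := by
  rw [mem_En] at hm
  obtain ⟨h1, h2, i, h3, h4⟩ := hm
  have hij : i = j := by
    by_contra hij
    refine h2 ⟨i, ?_, fun k hk => ((lev_le_flip_false x h1 k).1).trans (h4 k hk)⟩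
    rwa [lev_flip_ne x t hij] at h3
  subst hij
  rw [lev_flip_false x h1] at h3
  have h5 : ∀ k ∈ out i, lev x k ≤ β := fun k hk =>
    ((lev_le_flip_false x h1 k).1).trans (h4 k hk)
  refine ⟨h1, ?_, h5⟩
  by_contra h6
  exact h2 ⟨i, by omega, h5⟩

theorem En_P_true (hirr : ∀ i, i ∉ out i) {x : T × Fin 4 → Bool} {j : T} {t : Fin 4}
    (hm : (j, t) ∈ En (P out h β) x true) :
    x (j, t) = true ∧ lev x j = β + 1 ∧ ∃ i, j ∈ out i ∧ h ≤ lev x i ∧
      ∀ k ∈ out i, k ≠ j → lev x k ≤ β := by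
  rw [mem_En] at hm
  obtain ⟨h1, h2, i, h3, h4⟩ := hm
  have h3' : h ≤ lev x i := h3.trans (lev_le_flip_true x h1 i).1
  have h5 : ∀ k ∈ out i, k ≠ j → lev x k ≤ β := by
    intro k hk hne
    have := h4 k hk
    rwa [lev_flip_ne x t hne] at this
  have h6 : j ∈ out i := by
    by_contra h6
    exact h2 ⟨i, h3', fun k hk => h5 k hk (by rintro rfl; exact h6 hk)⟩
  have h7 : ¬ lev x j ≤ β := by
    intro h7
    refine h2 ⟨i, h3', fun k hk => ?_⟩
    by_cases hne : k = j
    · subst hne; exact h7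
    · exact h5 k hk hne
  have h8 := h4 j h6
  have h9 := lev_flip_true x h1
  exact ⟨h1, by omega, i, h6, h3', h5⟩

theorem Ex_P_false {x : T × Fin 4 → Bool} {j : T} {t : Fin 4}
    (hm : (j, t) ∈ Ex (P out h β) x false) {i : T} (hi : h ≤ lev x i)
    (hi2 : ∀ k ∈ out i, lev x k ≤ β) :
    x (j, t) = false ∧ j ∈ out i ∧ lev x j = β := by
  rw [mem_Ex] at hm
  obtain ⟨h1, -, h3⟩ := hm
  have h4 : j ∈ out i := by
    by_contra h4
    refine h3 ⟨i, hi.trans (lev_le_flip_false x h1 i).1, fun k hk => ?_⟩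
    rw [lev_flip_ne x t (by rintro rfl; exact h4 hk)]
    exact hi2 k hk
  refine ⟨h1, h4, le_antisymm (hi2 j h4) ?_⟩
  by_contra h5
  refine h3 ⟨i, hi.trans (lev_le_flip_false x h1 i).1, fun k hk => ?_⟩
  by_cases hkj : k = j
  · subst hkj
    rw [lev_flip_false x h1]
    omega
  · rw [lev_flip_ne x t hkj]
    exact hi2 k hk

theorem Ex_P_true {x : T × Fin 4 → Bool} {j : T} {t : Fin 4}
    (h1 : x (j, t) = true) (h3 : ¬ P out h β (flip x (j, t))) {i : T} (hi : h ≤ lev x i)
    (hi2 : ∀ k ∈ out i, lev x k ≤ β) : j = i := by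
  by_contra hne
  refine h3 ⟨i, ?_, fun k hk => (lev_le_flip_true x h1 k).1.trans (hi2 k hk)⟩
  rw [lev_flip_ne x t (Ne.symm hne)]
  exact hi

theorem card_block_le (j : T) (S : Finset (T × Fin 4)) (hS : ∀ q ∈ S, q.1 = j) :
    S.card ≤ 4 := by
  have : S.card ≤ (univ : Finset (Fin 4)).card := by
    refine card_le_card_of_injOn (fun q => q.2) (fun q _ => mem_univ _) ?_
    rintro ⟨a, b⟩ hq ⟨a', b'⟩ hq' hbb
    have h1 := hS _ hq
    have h2 := hS _ hq'
    simp only at h1 h2 hbb
    rw [h1, h2, hbb]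
  simpa using this

/-- zero bits of the blocks of a set -/
theorem card_zero_le (x : T × Fin 4 → Bool) (K : Finset T) (v d : ℕ) (hK : K.card ≤ d)
    (S : Finset (T × Fin 4)) (hS : ∀ q ∈ S, q.1 ∈ K ∧ lev x q.1 = v ∧ x q = false) :
    S.card ≤ (4 - v) * d := by
  classical
  have hsub : S ⊆ (K.filter fun k => lev x k = v).biUnion fun k =>
      (univ.filter fun t : Fin 4 => x (k, t) = false).image fun t => (k, t) := by
    rintro ⟨k, t⟩ hq
    obtain ⟨h1, h2, h3⟩ := hS _ hq
    exact mem_biUnion.2 ⟨k, mem_filter.2 ⟨h1, h2⟩,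
      mem_image.2 ⟨t, mem_filter.2 ⟨mem_univ _, h3⟩, rfl⟩⟩
  refine (card_le_card hsub).trans (card_biUnion_le.trans ?_)
  calc ∑ k ∈ K.filter (fun k => lev x k = v),
        ((univ.filter fun t : Fin 4 => x (k, t) = false).image fun t => (k, t)).card
      ≤ ∑ _k ∈ K.filter (fun k => lev x k = v), (4 - v) := by
        refine sum_le_sum fun k hk => card_image_le.trans ?_
        rw [card_zero, (mem_filter.1 hk).2]
    _ = (K.filter fun k => lev x k = v).card * (4 - v) := by rw [sum_const, smul_eq_mul]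
    _ ≤ d * (4 - v) := Nat.mul_le_mul_right _ ((card_filter_le _ _).trans hK)
    _ = (4 - v) * d := mul_comm _ _

theorem card_Ex_P_false (hT : IsTour out d) (x : T × Fin 4 → Bool) :
    (Ex (P out h β) x false).card ≤ (4 - β) * d := by
  by_cases hP : P out h β x
  · obtain ⟨i, h1, h2⟩ := hP
    refine card_zero_le x (out i) β d (hT.card i) _ ?_
    rintro ⟨j, t⟩ hq
    obtain ⟨h3, h4, h5⟩ := Ex_P_false hq h1 h2
    exact ⟨h4, h5, h3⟩
  · rw [Ex_eq_empty_of hP]; simp

theorem card_Ex_P_true (x : T × Fin 4 → Bool) : (Ex (P out h β) x true).card ≤ 4 := by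
  by_cases hP : P out h β x
  · obtain ⟨i, h1, h2⟩ := hP
    refine card_block_le i _ ?_
    rintro ⟨j, t⟩ hq
    rw [mem_Ex] at hq
    exact Ex_P_true hq.1 hq.2.2 h1 h2
  · rw [Ex_eq_empty_of hP]; simp

theorem card_En_P_false (hT : IsTour out d) (hβ : β ≤ 2) (x : T × Fin 4 → Bool) :
    (En (P out 4 β) x false).card ≤ 1 := by
  rw [card_le_one]
  rintro ⟨j, t⟩ hq ⟨j', t'⟩ hq'
  obtain ⟨h1, h2, h3⟩ := En_P_false hT.irrefl hq
  obtain ⟨h1', h2', h3'⟩ := En_P_false hT.irrefl hq'
  have hj : j = j' := by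
    by_contra hne
    rcases hT.total j j' hne with hh | hh
    · have := h3 _ hh; omega
    · have := h3' _ hh; omega
  subst hj
  have h4 : (univ.filter fun t : Fin 4 => x (j, t) = false).card ≤ 1 := by
    rw [card_zero]; omega
  rw [card_le_one] at h4
  have h5 := h4 t (mem_filter.2 ⟨mem_univ _, h1⟩) t' (mem_filter.2 ⟨mem_univ _, h1'⟩)
  rw [h5]

theorem card_En_P_true (hT : IsTour out d) (hβ : β ≤ 2) (x : T × Fin 4 → Bool) :
    (En (P out 4 β) x true).card ≤ β + 1 := by
  classical
  by_cases hne : (En (P out 4 β) x true).Nonempty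
  · obtain ⟨⟨j, t⟩, hq⟩ := hne
    obtain ⟨h1, h2, i, h3, h4, h5⟩ := En_P_true hT.irrefl hq
    have hsub : En (P out 4 β) x true ⊆
        (univ.filter fun t : Fin 4 => x (j, t) = true).image fun t => (j, t) := by
      rintro ⟨j', t'⟩ hq'
      obtain ⟨h1', h2', i', h3', h4', h5'⟩ := En_P_true hT.irrefl hq'
      have hii : i = i' := by
        by_contra hne
        rcases hT.total i i' hne with hh | hh
        · by_cases hij : i' = j
          · subst hij; omega
          · have := h5 _ hh hij; omega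
        · by_cases hij : i = j'
          · subst hij; omega
          · have := h5' _ hh hij; omega
      subst hii
      have hjj : j' = j := by
        by_contra hne
        have := h5 _ h3' hne
        omega
      subst hjj
      exact mem_image.2 ⟨t', mem_filter.2 ⟨mem_univ _, h1'⟩, rfl⟩
    refine (card_le_card hsub).trans (card_image_le.trans ?_)
    have : (univ.filter fun t : Fin 4 => x (j, t) = true).card = β + 1 := h2
    rw [this]
  · rw [not_nonempty_iff_eq_empty.1 hne]; simp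

end P

section copy

variable {T : Type*} [Fintype T] [DecidableEq T] {out : T → Finset T} {d : ℕ}

theorem E0_le_E1 (x : T × Fin 4 → Bool) (h : E0 out x) : E1 out x :=
  P_mono le_rfl (by norm_num) h

theorem E1_le_E2 (x : T × Fin 4 → Bool) (h : E1 out x) : E2 out x :=
  Or.inl (P_mono le_rfl (by norm_num) h)

theorem E0_le_E2 (x : T × Fin 4 → Bool) (h : E0 out x) : E2 out x :=
  E1_le_E2 x (E0_le_E1 x h)

/- E0 -/
theorem Ex_E0_false (hT : IsTour out d) (x : T × Fin 4 → Bool) :
    (Ex (E0 out) x false).card ≤ 4 * d := card_Ex_P_false hT x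

theorem Ex_E0_true (x : T × Fin 4 → Bool) :
    (Ex (E0 out) x true).card ≤ 4 := card_Ex_P_true x

theorem En_E0_false (hT : IsTour out d) (x : T × Fin 4 → Bool) :
    (En (E0 out) x false).card ≤ 1 := card_En_P_false hT (by norm_num) x

theorem En_E0_true (hT : IsTour out d) (x : T × Fin 4 → Bool) :
    (En (E0 out) x true).card ≤ 1 := card_En_P_true hT (by norm_num) x

/- E1 -/
theorem Ex_E1_false (hT : IsTour out d) (x : T × Fin 4 → Bool) :
    (Ex (E1 out) x false).card ≤ 3 * d := card_Ex_P_false hT x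

theorem Ex_E1_true (x : T × Fin 4 → Bool) :
    (Ex (E1 out) x true).card ≤ 4 := card_Ex_P_true x

theorem En_E1_false (hT : IsTour out d) (x : T × Fin 4 → Bool) :
    (En (E1 out) x false).card ≤ 1 := card_En_P_false hT (by norm_num) x

theorem En_E1_true (hT : IsTour out d) (x : T × Fin 4 → Bool) :
    (En (E1 out) x true).card ≤ 2 := card_En_P_true hT (by norm_num) x

/- E2 -/
theorem Ex_E2_false (x : T × Fin 4 → Bool) :
    (Ex (E2 out) x false).card ≤ 4 * Fintype.card T := by
  refine (card_le_univ _).trans ?_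
  rw [Fintype.card_prod, Fintype.card_fin, mul_comm]

theorem Ex_E2_true (x : T × Fin 4 → Bool) :
    (Ex (E2 out) x true).card ≤ 4 := by
  by_cases hP : E2 out x
  · have key : ∃ i : T, ∀ q ∈ Ex (E2 out) x true, q.1 = i := by
      rcases hP with ⟨i, h1, h2⟩ | ⟨i, h1, h2⟩ | ⟨i, h1, h2⟩
      · refine ⟨i, ?_⟩
        rintro ⟨j, t⟩ hq
        rw [mem_Ex] at hq
        exact Ex_P_true hq.1 (fun h => hq.2.2 (Or.inl h)) h1 h2
      · refine ⟨i, ?_⟩
        rintro ⟨j, t⟩ hq
        rw [mem_Ex] at hq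
        exact Ex_P_true hq.1 (fun h => hq.2.2 (Or.inr (Or.inl h))) h1 h2
      · refine ⟨i, ?_⟩
        rintro ⟨j, t⟩ hq
        rw [mem_Ex] at hq
        exact Ex_P_true hq.1 (fun h => hq.2.2 (Or.inr (Or.inr h))) h1 h2
    obtain ⟨i, hi⟩ := key
    exact card_block_le i _ hi
  · rw [Ex_eq_empty_of hP]; simp

theorem En_E2_cases {x : T × Fin 4 → Bool} {q : T × Fin 4} {c : Bool}
    (hq : q ∈ En (E2 out) x c) :
    q ∈ En (P out 4 2) x c ∨ q ∈ En (P out 3 1) x c ∨ q ∈ En (P out 2 0) x c := by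
  rw [mem_En] at hq
  obtain ⟨h1, h2, h3⟩ := hq
  simp only [E2, not_or] at h2
  rcases h3 with h3 | h3 | h3
  · exact Or.inl (mem_En.2 ⟨h1, h2.1, h3⟩)
  · exact Or.inr (Or.inl (mem_En.2 ⟨h1, h2.2.1, h3⟩))
  · exact Or.inr (Or.inr (mem_En.2 ⟨h1, h2.2.2, h3⟩))

theorem card_le_sixteen {S : Finset (T × Fin 4)} (F : T → ℕ) (hF : ∀ q ∈ S, F q.1 < 4)
    (hinj : ∀ q ∈ S, ∀ q' ∈ S, F q.1 = F q'.1 → q.2 = q'.2 → q.1 = q'.1) : S.card ≤ 16 := by
  have : S.card ≤ ((range 4) ×ˢ (univ : Finset (Fin 4))).card := by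
    refine card_le_card_of_injOn (fun q => (F q.1, q.2)) ?_ ?_
    · intro q hq
      simpa using hF q hq
    · intro q hq q' hq' h
      simp only [Prod.mk.injEq] at h
      exact Prod.ext (hinj q hq q' hq' h.1 h.2) h.2
  simpa using this

theorem En_E2_false (hT : IsTour out d) (x : T × Fin 4 → Bool) :
    (En (E2 out) x false).card ≤ 16 := by
  have key : ∀ q ∈ En (E2 out) x false, lev x q.1 < 4 ∧ 1 ≤ lev x q.1 ∧
      ∀ k ∈ out q.1, lev x k < lev x q.1 := by
    rintro ⟨j, t⟩ hq
    rcases En_E2_cases hq with h | h | h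
    all_goals
      obtain ⟨h1, h2, h3⟩ := En_P_false hT.irrefl h
      refine ⟨by simp only; omega, by simp only; omega, fun k hk => ?_⟩
      have := h3 k hk
      simp only
      omega
  refine card_le_sixteen (lev x) (fun q hq => (key q hq).1) ?_
  intro q hq q' hq' h _
  by_contra hne
  rcases hT.total _ _ hne with hh | hh
  · have := (key q hq).2.2 _ hh; omega
  · have := (key q' hq').2.2 _ hh; omega

theorem En_E2_true (hT : IsTour out d) (x : T × Fin 4 → Bool) :
    (En (E2 out) x true).card ≤ 16 := by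
  have key : ∀ q ∈ En (E2 out) x true, lev x q.1 < 4 ∧ ∃ i, q.1 ∈ out i ∧
      lev x i = lev x q.1 + 1 ∧ ∀ k ∈ out i, k ≠ q.1 → lev x k < lev x q.1 := by
    rintro ⟨j, t⟩ hq
    have hnot : ¬ E2 out x := (mem_En.1 hq).2.1
    simp only [E2, not_or] at hnot
    rcases En_E2_cases hq with h | h | h
    · obtain ⟨h1, h2, i, h3, h4, h5⟩ := En_P_true hT.irrefl h
      refine ⟨by simp only; omega, i, h3, ?_, fun k hk hne => ?_⟩
      · have := lev_le_four x i; simp only; omega
      · have := h5 k hk hne; simp only; omega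
    · obtain ⟨h1, h2, i, h3, h4, h5⟩ := En_P_true hT.irrefl h
      refine ⟨by simp only; omega, i, h3, ?_, fun k hk hne => ?_⟩
      · simp only
        by_contra hne
        refine hnot.1 ⟨i, by omega, fun k hk => ?_⟩
        by_cases hkj : k = j
        · subst hkj; omega
        · have := h5 k hk hkj; omega
      · have := h5 k hk hne; simp only; omega
    · obtain ⟨h1, h2, i, h3, h4, h5⟩ := En_P_true hT.irrefl h
      refine ⟨by simp only; omega, i, h3, ?_, fun k hk hne => ?_⟩
      · simp only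
        by_contra hne
        refine hnot.2.1 ⟨i, by omega, fun k hk => ?_⟩
        by_cases hkj : k = j
        · subst hkj; omega
        · have := h5 k hk hkj; omega
      · have := h5 k hk hne; simp only; omega
  refine card_le_sixteen (lev x) (fun q hq => (key q hq).1) ?_
  intro q hq q' hq' h _
  obtain ⟨-, i, h1, h2, h3⟩ := key q hq
  obtain ⟨-, i', h1', h2', h3'⟩ := key q' hq'
  have hii : i = i' := by
    by_contra hne
    rcases hT.total i i' hne with hh | hh
    · by_cases hk : i' = q.1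
      · rw [hk] at h2'; omega
      · have := h3 _ hh hk; omega
    · by_cases hk : i = q'.1
      · rw [hk] at h2; omega
      · have := h3' _ hh hk; omega
  subst hii
  by_contra hne
  have := h3' _ h1 hne
  omega

/- robustness -/
theorem En_E0_false_E2 (hT : IsTour out d) (x : T × Fin 4 → Bool)
    (h : (En (E0 out) x false).Nonempty) : E2 out x := by
  obtain ⟨⟨j, t⟩, hq⟩ := h
  obtain ⟨h1, h2, h3⟩ := En_P_false hT.irrefl hq
  exact Or.inr (Or.inl ⟨j, by omega, fun k hk => (h3 k hk).trans (by norm_num)⟩)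

theorem En_E0_true_E1 (hT : IsTour out d) (x : T × Fin 4 → Bool)
    (h : (En (E0 out) x true).Nonempty) : E1 out x := by
  obtain ⟨⟨j, t⟩, hq⟩ := h
  obtain ⟨h1, h2, i, h3, h4, h5⟩ := En_P_true hT.irrefl hq
  refine ⟨i, h4, fun k hk => ?_⟩
  by_cases hkj : k = j
  · subst hkj; omega
  · have := h5 k hk hkj; omega

theorem E0_Ex_E2 (x : T × Fin 4 → Bool) (h : E0 out x) (c : Bool) :
    Ex (E2 out) x c = ∅ := by
  rw [← not_nonempty_iff_eq_empty]
  rintro ⟨q, hq⟩
  rw [mem_Ex] at hq
  refine hq.2.2 ?_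
  cases hc : x q
  · exact E1_le_E2 _ (P_flip_false h hc)
  · exact Or.inr (Or.inl (P_mono le_rfl (by norm_num) (P_flip_true h hc)))

theorem E0_Ex_E1_false (x : T × Fin 4 → Bool) (h : E0 out x) :
    Ex (E1 out) x false = ∅ := by
  rw [← not_nonempty_iff_eq_empty]
  rintro ⟨q, hq⟩
  rw [mem_Ex] at hq
  exact hq.2.2 (P_flip_false h hq.1)

theorem E1_Ex_E2_false (x : T × Fin 4 → Bool) (h : E1 out x) :
    Ex (E2 out) x false = ∅ := by
  rw [← not_nonempty_iff_eq_empty]
  rintro ⟨q, hq⟩
  rw [mem_Ex] at hq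
  exact hq.2.2 (Or.inl (P_flip_false h hq.1))

theorem not_E2_En_E1_true (hT : IsTour out d) (x : T × Fin 4 → Bool) (h : ¬ E2 out x) :
    En (E1 out) x true = ∅ := by
  rw [← not_nonempty_iff_eq_empty]
  rintro ⟨⟨j, t⟩, hq⟩
  obtain ⟨h1, h2, i, h3, h4, h5⟩ := En_P_true hT.irrefl hq
  refine h (Or.inl ⟨i, h4, fun k hk => ?_⟩)
  by_cases hkj : k = j
  · subst hkj; omega
  · have := h5 k hk hkj; omega

end copy

end BSS
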