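import Mathlib
import Crest.Agent.BSS.Defs
import Crest.Agent.BSS.Tour
import Crest.Agent.BSS.Copy
import Crest.Agent.BSS.Amp

/-!
S0485: nested tournaments, the bounds and the final choice of the parameters (owner helper7).
-/

set_option autoImplicit false

namespace BSS

open Finset

section level2

variable {T₂ T₃ : Type*} [Fintype T₂] [DecidableEq T₂] [Fintype T₃] [DecidableEq T₃]
  {out₂ : T₂ → Finset T₂} {out₃ : T₃ → Finset T₃} {d₂ d₃ : ℕ}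

/-- strong event -/
def V2 (out₂ : T₂ → Finset T₂) (out₃ : T₃ → Finset T₃) :
    (T₂ × (T₃ × Fin 4) → Bool) → Prop :=
  G out₂ (E0 out₃) (E2 out₃)

/-- weak event -/
def V1 (out₂ : T₂ → Finset T₂) (out₃ : T₃ → Finset T₃) :
    (T₂ × (T₃ × Fin 4) → Bool) → Prop :=
  G out₂ (E0 out₃) (E1 out₃)

theorem V2_le_V1 (x : T₂ × (T₃ × Fin 4) → Bool) (h : V2 out₂ out₃ x) : V1 out₂ out₃ x := by
  obtain ⟨a, h1, h2⟩ := h
  exact ⟨a, h1, fun b hb h3 => h2 b hb (E1_le_E2 _ h3)⟩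

theorem Ex_V2_false (hT₂ : IsTour out₂ d₂) (hT₃ : IsTour out₃ d₃)
    (x : T₂ × (T₃ × Fin 4) → Bool) :
    (Ex (V2 out₂ out₃) x false).card ≤ 4 * d₃ + d₂ * 16 :=
  card_Ex_G_le' hT₂ x false _ _ (Ex_E0_false hT₃) (En_E2_false hT₃)

theorem Ex_V2_true (hT₂ : IsTour out₂ d₂) (hT₃ : IsTour out₃ d₃)
    (x : T₂ × (T₃ × Fin 4) → Bool) :
    (Ex (V2 out₂ out₃) x true).card ≤ 4 + d₂ * 16 :=
  card_Ex_G_le' hT₂ x true _ _ Ex_E0_true (En_E2_true hT₃)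

theorem Ex_V1_false (hT₂ : IsTour out₂ d₂) (hT₃ : IsTour out₃ d₃)
    (x : T₂ × (T₃ × Fin 4) → Bool) :
    (Ex (V1 out₂ out₃) x false).card ≤ 4 * d₃ + d₂ * 1 :=
  card_Ex_G_le' hT₂ x false _ _ (Ex_E0_false hT₃) (En_E1_false hT₃)

theorem Ex_V1_true (hT₂ : IsTour out₂ d₂) (hT₃ : IsTour out₃ d₃)
    (x : T₂ × (T₃ × Fin 4) → Bool) :
    (Ex (V1 out₂ out₃) x true).card ≤ 4 + d₂ * 2 :=
  card_Ex_G_le' hT₂ x true _ _ Ex_E0_true (En_E1_true hT₃)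

theorem Ex_V1_true_of_V2 (hT₂ : IsTour out₂ d₂) (hT₃ : IsTour out₃ d₃)
    (x : T₂ × (T₃ × Fin 4) → Bool) (h : V2 out₂ out₃ x) :
    (Ex (V1 out₂ out₃) x true).card ≤ 4 := by
  obtain ⟨a, h1, h2⟩ := h
  refine (card_Ex_G_le hT₂.irrefl x true a h1 fun b hb h3 => h2 b hb (E1_le_E2 _ h3)).trans ?_
  rw [sum_eq_zero]
  · exact Ex_E0_true _
  · intro b hb
    rw [not_E2_En_E1_true hT₃ _ (h2 b hb)]
    rfl

theorem En_V1_false (hT₂ : IsTour out₂ d₂) (hT₃ : IsTour out₃ d₃)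
    (x : T₂ × (T₃ × Fin 4) → Bool) :
    (En (V1 out₂ out₃) x false).card ≤ Fintype.card T₂ + 3 * d₃ := by
  refine (card_En_G_le hT₂.irrefl x false).trans (Nat.add_le_add ?_ ?_)
  · calc ∑ b ∈ Aset out₂ (E0 out₃) (E1 out₃) x false, (En (E0 out₃) (sl x b) false).card
        ≤ ∑ _b ∈ Aset out₂ (E0 out₃) (E1 out₃) x false, 1 :=
          sum_le_sum fun b _ => En_E0_false hT₃ _
      _ = (Aset out₂ (E0 out₃) (E1 out₃) x false).card := by simp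
      _ ≤ Fintype.card T₂ := card_le_univ _
  · have h1 := Bset_card_le_one hT₂ (E := E0 out₃) (E' := E1 out₃) E0_le_E1 x false
      E0_Ex_E1_false
    calc ∑ b ∈ Bset out₂ (E0 out₃) (E1 out₃) x false, (Ex (E1 out₃) (sl x b) false).card
        ≤ ∑ _b ∈ Bset out₂ (E0 out₃) (E1 out₃) x false, (3 * d₃) :=
          sum_le_sum fun b _ => Ex_E1_false hT₃ _
      _ = (Bset out₂ (E0 out₃) (E1 out₃) x false).card * (3 * d₃) := by simp
      _ ≤ 1 * (3 * d₃) := Nat.mul_le_mul_right _ h1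
      _ = 3 * d₃ := one_mul _

theorem En_V1_true (hT₂ : IsTour out₂ d₂) (hT₃ : IsTour out₃ d₃)
    (x : T₂ × (T₃ × Fin 4) → Bool) :
    (En (V1 out₂ out₃) x true).card ≤ 13 := by
  refine (card_En_G_le hT₂.irrefl x true).trans
    ((Nat.add_le_add (?_ : _ ≤ 1) (?_ : _ ≤ 12)).trans (by norm_num))
  · have h1 := Aset_card_le_one hT₂ (E := E0 out₃) (E' := E1 out₃) x true (En_E0_true_E1 hT₃)
    calc ∑ b ∈ Aset out₂ (E0 out₃) (E1 out₃) x true, (En (E0 out₃) (sl x b) true).card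
        ≤ ∑ _b ∈ Aset out₂ (E0 out₃) (E1 out₃) x true, 1 :=
          sum_le_sum fun b _ => En_E0_true hT₃ _
      _ = (Aset out₂ (E0 out₃) (E1 out₃) x true).card := by simp
      _ ≤ 1 := h1
  · have h1 := Bset_card_le_three hT₂ (E := E0 out₃) (E' := E1 out₃) E0_le_E1 x true
    calc ∑ b ∈ Bset out₂ (E0 out₃) (E1 out₃) x true, (Ex (E1 out₃) (sl x b) true).card
        ≤ ∑ _b ∈ Bset out₂ (E0 out₃) (E1 out₃) x true, 4 :=
          sum_le_sum fun b _ => Ex_E1_true _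
      _ = (Bset out₂ (E0 out₃) (E1 out₃) x true).card * 4 := by simp
      _ ≤ 3 * 4 := Nat.mul_le_mul_right _ h1
      _ = 12 := rfl

theorem En_V2_false_A (hT₂ : IsTour out₂ d₂) (hT₃ : IsTour out₃ d₃)
    (x : T₂ × (T₃ × Fin 4) → Bool) :
    ∑ b ∈ Aset out₂ (E0 out₃) (E2 out₃) x false, (En (E0 out₃) (sl x b) false).card ≤ 1 := by
  have h1 := Aset_card_le_one hT₂ (E := E0 out₃) (E' := E2 out₃) x false (En_E0_false_E2 hT₃)
  calc ∑ b ∈ Aset out₂ (E0 out₃) (E2 out₃) x false, (En (E0 out₃) (sl x b) false).card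
      ≤ ∑ _b ∈ Aset out₂ (E0 out₃) (E2 out₃) x false, 1 :=
        sum_le_sum fun b _ => En_E0_false hT₃ _
    _ = (Aset out₂ (E0 out₃) (E2 out₃) x false).card := by simp
    _ ≤ 1 := h1

theorem En_V2_false (hT₂ : IsTour out₂ d₂) (hT₃ : IsTour out₃ d₃)
    (x : T₂ × (T₃ × Fin 4) → Bool) :
    (En (V2 out₂ out₃) x false).card ≤ 1 + 4 * Fintype.card T₃ := by
  refine (card_En_G_le hT₂.irrefl x false).trans
    (Nat.add_le_add (En_V2_false_A hT₂ hT₃ x) ?_)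
  have h1 := Bset_card_le_one hT₂ (E := E0 out₃) (E' := E2 out₃) E0_le_E2 x false
    fun y hy => E0_Ex_E2 y hy false
  calc ∑ b ∈ Bset out₂ (E0 out₃) (E2 out₃) x false, (Ex (E2 out₃) (sl x b) false).card
      ≤ ∑ _b ∈ Bset out₂ (E0 out₃) (E2 out₃) x false, (4 * Fintype.card T₃) :=
        sum_le_sum fun b _ => Ex_E2_false _
    _ = (Bset out₂ (E0 out₃) (E2 out₃) x false).card * (4 * Fintype.card T₃) := by simp
    _ ≤ 1 * (4 * Fintype.card T₃) := Nat.mul_le_mul_right _ h1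
    _ = 4 * Fintype.card T₃ := one_mul _

theorem En_V2_false_of_not_V1 (hT₂ : IsTour out₂ d₂) (hT₃ : IsTour out₃ d₃)
    (x : T₂ × (T₃ × Fin 4) → Bool) (h : ¬ V1 out₂ out₃ x) :
    (En (V2 out₂ out₃) x false).card ≤ 1 := by
  refine (card_En_G_le hT₂.irrefl x false).trans
    (Nat.add_le_add (En_V2_false_A hT₂ hT₃ x) (?_ : _ ≤ 0))
  have : Bset out₂ (E0 out₃) (E2 out₃) x false = ∅ := by
    rw [← not_nonempty_iff_eq_empty]
    rintro ⟨b, hb⟩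
    obtain ⟨a, h1, h2, h3, h4⟩ := mem_Bset.1 hb
    refine h ⟨a, h1, fun b' hb' h5 => ?_⟩
    by_cases hbb : b' = b
    · subst hbb
      rw [E1_Ex_E2_false _ h5] at h4
      simp at h4
    · exact h3 b' hb' hbb (E1_le_E2 _ h5)
  rw [this]
  simp

theorem En_V2_true (hT₂ : IsTour out₂ d₂) (hT₃ : IsTour out₃ d₃)
    (x : T₂ × (T₃ × Fin 4) → Bool) :
    (En (V2 out₂ out₃) x true).card ≤ 5 := by
  refine (card_En_G_le hT₂.irrefl x true).trans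
    ((Nat.add_le_add (?_ : _ ≤ 1) (?_ : _ ≤ 4)).trans (by norm_num))
  · have h1 := Aset_card_le_one hT₂ (E := E0 out₃) (E' := E2 out₃) x true
      fun y hy => E1_le_E2 y (En_E0_true_E1 hT₃ y hy)
    calc ∑ b ∈ Aset out₂ (E0 out₃) (E2 out₃) x true, (En (E0 out₃) (sl x b) true).card
        ≤ ∑ _b ∈ Aset out₂ (E0 out₃) (E2 out₃) x true, 1 :=
          sum_le_sum fun b _ => En_E0_true hT₃ _
      _ = (Aset out₂ (E0 out₃) (E2 out₃) x true).card := by simp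
      _ ≤ 1 := h1
  · have h1 := Bset_card_le_one hT₂ (E := E0 out₃) (E' := E2 out₃) E0_le_E2 x true
      fun y hy => E0_Ex_E2 y hy true
    calc ∑ b ∈ Bset out₂ (E0 out₃) (E2 out₃) x true, (Ex (E2 out₃) (sl x b) true).card
        ≤ ∑ _b ∈ Bset out₂ (E0 out₃) (E2 out₃) x true, 4 :=
          sum_le_sum fun b _ => Ex_E2_true _
      _ = (Bset out₂ (E0 out₃) (E2 out₃) x true).card * 4 := by simp
      _ ≤ 1 * 4 := Nat.mul_le_mul_right _ h1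
      _ = 4 := rfl

end level2

section level3

variable {T₁ T₂ T₃ : Type*} [Fintype T₁] [DecidableEq T₁] [Fintype T₂] [DecidableEq T₂]
  [Fintype T₃] [DecidableEq T₃] {out₁ : T₁ → Finset T₁}
  {out₂ : T₂ → Finset T₂} {out₃ : T₃ → Finset T₃} {d₁ d₂ d₃ : ℕ}

/-- the base function -/
def SS (out₁ : T₁ → Finset T₁) (out₂ : T₂ → Finset T₂) (out₃ : T₃ → Finset T₃) :
    (T₁ × (T₂ × (T₃ × Fin 4)) → Bool) → Prop :=
  G out₁ (V2 out₂ out₃) (V1 out₂ out₃)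

theorem Ex_SS_false (hT₁ : IsTour out₁ d₁) (hT₂ : IsTour out₂ d₂) (hT₃ : IsTour out₃ d₃)
    (x : T₁ × (T₂ × (T₃ × Fin 4)) → Bool) :
    (Ex (SS out₁ out₂ out₃) x false).card ≤
      (4 * d₃ + d₂ * 16) + d₁ * (Fintype.card T₂ + 3 * d₃) :=
  card_Ex_G_le' hT₁ x false _ _ (Ex_V2_false hT₂ hT₃) (En_V1_false hT₂ hT₃)

theorem Ex_SS_true (hT₁ : IsTour out₁ d₁) (hT₂ : IsTour out₂ d₂) (hT₃ : IsTour out₃ d₃)
    (x : T₁ × (T₂ × (T₃ × Fin 4)) → Bool) :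
    (Ex (SS out₁ out₂ out₃) x true).card ≤ (4 + d₂ * 16) + d₁ * 13 :=
  card_Ex_G_le' hT₁ x true _ _ (Ex_V2_true hT₂ hT₃) (En_V1_true hT₂ hT₃)

theorem sum_le_of_unique {T : Type*} [DecidableEq T] (A : Finset T) (F : T → ℕ) (Q : T → Prop)
    (u v : ℕ) (h1 : ∀ b ∈ A, ¬ Q b → F b ≤ u) (h2 : ∀ b ∈ A, F b ≤ u + v)
    (h3 : ∀ a ∈ A, ∀ b ∈ A, Q a → Q b → a = b) : ∑ b ∈ A, F b ≤ A.card * u + v := by
  classical
  have h4 : ∀ b ∈ A, F b ≤ u + if Q b then v else 0 := by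
    intro b hb
    by_cases hQ : Q b
    · simpa [hQ] using h2 b hb
    · simpa [hQ] using h1 b hb hQ
  calc ∑ b ∈ A, F b ≤ ∑ b ∈ A, (u + if Q b then v else 0) := sum_le_sum h4
    _ = A.card * u + ∑ b ∈ A, (if Q b then v else 0) := by
        rw [sum_add_distrib, sum_const, smul_eq_mul]
    _ = A.card * u + (A.filter Q).card * v := by
        rw [← sum_filter, sum_const, smul_eq_mul]
    _ ≤ A.card * u + 1 * v := by
        refine Nat.add_le_add_left (Nat.mul_le_mul_right _ ?_) _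
        rw [card_le_one]
        intro a ha b hb
        rw [mem_filter] at ha hb
        exact h3 a ha.1 b hb.1 ha.2 hb.2
    _ = _ := by rw [one_mul]

theorem En_SS_false (hT₁ : IsTour out₁ d₁) (hT₂ : IsTour out₂ d₂) (hT₃ : IsTour out₃ d₃)
    (x : T₁ × (T₂ × (T₃ × Fin 4)) → Bool) :
    (En (SS out₁ out₂ out₃) x false).card ≤
      (Fintype.card T₁ + 4 * Fintype.card T₃) + 3 * (4 * d₃ + d₂ * 1) := by
  refine (card_En_G_le hT₁.irrefl x false).trans (Nat.add_le_add ?_ ?_)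
  · refine (sum_le_of_unique _ _ (fun b => V1 out₂ out₃ (sl x b)) 1 (4 * Fintype.card T₃)
      (fun b _ hb => En_V2_false_of_not_V1 hT₂ hT₃ _ hb) (fun b _ => En_V2_false hT₂ hT₃ _)
      fun a ha b hb h1 h2 => Aset_unique hT₁ ha hb h1 h2).trans ?_
    have : (Aset out₁ (V2 out₂ out₃) (V1 out₂ out₃) x false).card ≤ Fintype.card T₁ :=
      card_le_univ _
    omega
  · have h1 := Bset_card_le_three hT₁ (E := V2 out₂ out₃) (E' := V1 out₂ out₃) V2_le_V1 x false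
    calc ∑ b ∈ Bset out₁ (V2 out₂ out₃) (V1 out₂ out₃) x false,
          (Ex (V1 out₂ out₃) (sl x b) false).card
        ≤ ∑ _b ∈ Bset out₁ (V2 out₂ out₃) (V1 out₂ out₃) x false, (4 * d₃ + d₂ * 1) :=
          sum_le_sum fun b _ => Ex_V1_false hT₂ hT₃ _
      _ = (Bset out₁ (V2 out₂ out₃) (V1 out₂ out₃) x false).card * (4 * d₃ + d₂ * 1) := by
          rw [sum_const, smul_eq_mul]
      _ ≤ 3 * (4 * d₃ + d₂ * 1) := Nat.mul_le_mul_right _ h1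

theorem En_SS_true (hT₁ : IsTour out₁ d₁) (hT₂ : IsTour out₂ d₂) (hT₃ : IsTour out₃ d₃)
    (x : T₁ × (T₂ × (T₃ × Fin 4)) → Bool) :
    (En (SS out₁ out₂ out₃) x true).card ≤ Fintype.card T₁ * 5 + (12 + d₂ * 2) := by
  refine (card_En_G_le hT₁.irrefl x true).trans (Nat.add_le_add ?_ ?_)
  · calc ∑ b ∈ Aset out₁ (V2 out₂ out₃) (V1 out₂ out₃) x true,
          (En (V2 out₂ out₃) (sl x b) true).card
        ≤ ∑ _b ∈ Aset out₁ (V2 out₂ out₃) (V1 out₂ out₃) x true, 5 :=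
          sum_le_sum fun b _ => En_V2_true hT₂ hT₃ _
      _ = (Aset out₁ (V2 out₂ out₃) (V1 out₂ out₃) x true).card * 5 := by
          rw [sum_const, smul_eq_mul]
      _ ≤ Fintype.card T₁ * 5 := Nat.mul_le_mul_right _ (card_le_univ _)
  · refine (sum_le_of_unique _ _ (fun b => ¬ V2 out₂ out₃ (sl x b)) 4 (d₂ * 2)
      (fun b _ hb => Ex_V1_true_of_V2 hT₂ hT₃ _ (not_not.1 hb))
      (fun b _ => Ex_V1_true hT₂ hT₃ _)
      fun a ha b hb h1 h2 => Bset_unique hT₁ V2_le_V1 ha hb h1 h2).trans ?_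
    have h1 := Bset_card_le_three hT₁ (E := V2 out₂ out₃) (E' := V1 out₂ out₃) V2_le_V1 x true
    omega

/- the zero state -/
omit [Fintype T₃] [DecidableEq T₃] in
theorem lev_zero (j : T₃) : lev (fun _ : T₃ × Fin 4 => false) j = 0 := by
  simp [lev]

omit [Fintype T₃] [DecidableEq T₃] in
theorem not_E2_zero : ¬ E2 out₃ fun _ => false := by
  rintro (⟨j, h, -⟩ | ⟨j, h, -⟩ | ⟨j, h, -⟩) <;> simp [lev_zero] at h

omit [Fintype T₃] [DecidableEq T₃] in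
theorem not_E0_zero : ¬ E0 out₃ fun _ => false := by
  rintro ⟨j, h, -⟩
  simp [lev_zero] at h

omit [Fintype T₂] [DecidableEq T₂] [Fintype T₃] [DecidableEq T₃] in
theorem not_V1_zero : ¬ V1 out₂ out₃ fun _ => false := by
  rintro ⟨a, h, -⟩
  exact not_E0_zero h

theorem not_SS_zero : ¬ SS out₁ out₂ out₃ fun _ => false := by
  rintro ⟨a, h, -⟩
  exact not_V1_zero (V2_le_V1 _ h)

/-- the block of `(a, b, j)` -/
def blk (q : T₁ × T₂ × T₃) : Finset (T₁ × (T₂ × (T₃ × Fin 4))) :=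
  (univ : Finset (Fin 4)).image fun t => (q.1, (q.2.1, (q.2.2, t)))

omit [Fintype T₁] [Fintype T₂] [Fintype T₃] in
theorem mem_blk {q : T₁ × T₂ × T₃} {z : T₁ × (T₂ × (T₃ × Fin 4))} :
    z ∈ blk q ↔ z.1 = q.1 ∧ z.2.1 = q.2.1 ∧ z.2.2.1 = q.2.2 := by
  obtain ⟨a, b, j, t⟩ := z
  obtain ⟨a', b', j'⟩ := q
  simp only [blk, mem_image, mem_univ, true_and, Prod.mk.injEq]
  constructor
  · rintro ⟨s, h1, h2, h3, h4⟩
    exact ⟨h1.symm, h2.symm, h3.symm⟩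
  · rintro ⟨h1, h2, h3⟩
    exact ⟨t, h1.symm, h2.symm, h3.symm, rfl⟩

theorem SS_blk (h₁ : ∀ i, i ∉ out₁ i) (h₂ : ∀ i, i ∉ out₂ i) (h₃ : ∀ i, i ∉ out₃ i)
    (q : T₁ × T₂ × T₃) : SS out₁ out₂ out₃ fun z => decide (z ∈ blk q) := by
  obtain ⟨a, b, j⟩ := q
  refine ⟨a, ⟨b, ⟨j, ?_, fun k hk => ?_⟩, fun b' hb' => ?_⟩, fun a' ha' => ?_⟩
  · simp [lev, sl, mem_blk]
  · have : k ≠ j := fun h => h₃ j (h ▸ hk)
    simp [lev, sl, mem_blk, this]
  · have hne : b' ≠ b := fun h => h₂ b (h ▸ hb')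
    have : sl (sl (fun z => decide (z ∈ blk (a, b, j))) a) b' =
        fun _ : T₃ × Fin 4 => false := by
      funext z
      simp [sl, mem_blk, hne]
    rw [this]
    exact not_E2_zero
  · have hne : a' ≠ a := fun h => h₁ a (h ▸ ha')
    have : sl (fun z => decide (z ∈ blk (a, b, j))) a' =
        fun _ : T₂ × (T₃ × Fin 4) => false := by
      funext z
      simp [sl, mem_blk, hne]
    rw [this]
    exact not_V1_zero

end level3

/-- the base function satisfies `Base` -/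
theorem base_SS {T₁ T₂ T₃ : Type} [Fintype T₁] [DecidableEq T₁] [Fintype T₂] [DecidableEq T₂]
    [Fintype T₃] [DecidableEq T₃] {out₁ : T₁ → Finset T₁}
    {out₂ : T₂ → Finset T₂} {out₃ : T₃ → Finset T₃} {d₁ d₂ d₃ : ℕ}
    (hT₁ : IsTour out₁ d₁) (hT₂ : IsTour out₂ d₂) (hT₃ : IsTour out₃ d₃) {σ θ : ℝ}
    (hθ : 0 < θ)
    (h0 : (((Fintype.card T₁ + 4 * Fintype.card T₃) + 3 * (4 * d₃ + d₂ * 1) : ℕ) : ℝ) +
      ((Fintype.card T₁ * 5 + (12 + d₂ * 2) : ℕ) : ℝ) / θ ≤ σ)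
    (h1 : (((4 + d₂ * 16) + d₁ * 13 : ℕ) : ℝ) +
      θ * (((4 * d₃ + d₂ * 16) + d₁ * (Fintype.card T₂ + 3 * d₃) : ℕ) : ℝ) ≤ σ) :
    Base (SS out₁ out₂ out₃) (Fintype.card (T₁ × T₂ × T₃)) σ θ := by
  refine ⟨not_SS_zero, ⟨fun k => blk ((Fintype.equivFin (T₁ × T₂ × T₃)).symm k), ?_, ?_⟩, ?_, ?_⟩
  · intro k l hkl
    have hne : (Fintype.equivFin (T₁ × T₂ × T₃)).symm k ≠
        (Fintype.equivFin (T₁ × T₂ × T₃)).symm l := fun h =>
      hkl ((Fintype.equivFin (T₁ × T₂ × T₃)).symm.injective h)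
    rw [disjoint_left]
    intro z hz hz'
    rw [mem_blk] at hz hz'
    exact hne (Prod.ext (hz.1.symm.trans hz'.1)
      (Prod.ext (hz.2.1.symm.trans hz'.2.1) (hz.2.2.symm.trans hz'.2.2)))
  · intro k
    have := SS_blk hT₁.irrefl hT₂.irrefl hT₃.irrefl
      ((Fintype.equivFin (T₁ × T₂ × T₃)).symm k)
    convert this
  · intro x
    refine le_trans (add_le_add (Nat.cast_le.2 (En_SS_false hT₁ hT₂ hT₃ x))
      (div_le_div_of_nonneg_right (Nat.cast_le.2 (En_SS_true hT₁ hT₂ hT₃ x)) hθ.le)) h0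
  · intro x
    refine le_trans (add_le_add (Nat.cast_le.2 (Ex_SS_true hT₁ hT₂ hT₃ x))
      (mul_le_mul_of_nonneg_left (Nat.cast_le.2 (Ex_SS_false hT₁ hT₂ hT₃ x)) hθ.le)) h1

/-- the cyclic tournament -/
def cyc (d : ℕ) (i : Fin (2 * d + 1)) : Finset (Fin (2 * d + 1)) :=
  univ.filter fun j => (i.val < j.val ∧ j.val - i.val ≤ d) ∨
    (j.val < i.val ∧ d < i.val - j.val)

theorem isTour_cyc (d : ℕ) : IsTour (cyc d) d := by
  refine ⟨?_, ?_, ?_⟩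
  · intro i j hij
    have : i.val ≠ j.val := fun h => hij (Fin.ext h)
    simp only [cyc, mem_filter, mem_univ, true_and]
    omega
  · intro i
    simp only [cyc, mem_filter, mem_univ, true_and]
    omega
  · intro i
    have h : (cyc d i).card ≤ (Finset.Icc 1 d).card := by
      refine card_le_card_of_injOn
        (fun j => if i.val < j.val then j.val - i.val else 2 * d + 1 + j.val - i.val) ?_ ?_
      · intro j hj
        simp only [cyc, coe_filter, mem_univ, true_and, Set.mem_ofPred_eq] at hj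
        simp only [coe_Icc, Set.mem_Icc]
        have := i.isLt
        have := j.isLt
        split_ifs <;> omega
      · intro j hj k hk hjk
        simp only [cyc, coe_filter, mem_univ, true_and, Set.mem_ofPred_eq] at hj hk
        simp only at hjk
        have := i.isLt
        have := j.isLt
        have := k.isLt
        apply Fin.ext
        split_ifs at hjk <;> omega
    simpa using h

theorem base_cyc (d₁ d₂ d₃ : ℕ) {σ θ : ℝ} (hθ : 0 < θ)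
    (h0 : (((2 * d₁ + 1) + 4 * (2 * d₃ + 1)) + 3 * (4 * d₃ + d₂) : ℝ) +
      ((2 * d₁ + 1) * 5 + (12 + d₂ * 2)) / θ ≤ σ)
    (h1 : ((4 + d₂ * 16) + d₁ * 13 : ℝ) +
      θ * ((4 * d₃ + d₂ * 16) + d₁ * ((2 * d₂ + 1) + 3 * d₃)) ≤ σ) :
    Base (SS (cyc d₁) (cyc d₂) (cyc d₃))
      (Fintype.card (Fin (2 * d₁ + 1) × Fin (2 * d₂ + 1) × Fin (2 * d₃ + 1))) σ θ := by
  refine base_SS (isTour_cyc d₁) (isTour_cyc d₂) (isTour_cyc d₃) hθ ?_ ?_
  · simp only [Fintype.card_fin]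
    push_cast
    rw [mul_one]
    exact h0
  · simp only [Fintype.card_fin]
    push_cast
    exact h1

theorem main_gen (d₁ d₂ d₃ : ℕ) {σ θ : ℝ} (hθ : 0 < θ) (hσ : 1 < σ)
    (h0 : (((2 * d₁ + 1) + 4 * (2 * d₃ + 1)) + 3 * (4 * d₃ + d₂) : ℝ) +
      ((2 * d₁ + 1) * 5 + (12 + d₂ * 2)) / θ ≤ σ)
    (h1 : ((4 + d₂ * 16) + d₁ * 13 : ℝ) +
      θ * ((4 * d₃ + d₂ * 16) + d₁ * ((2 * d₂ + 1) + 3 * d₃)) ≤ σ)
    (h2 : σ ^ 2 < (2 * d₁ + 1) * ((2 * d₂ + 1) * (2 * d₃ + 1))) :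
    ∃ α : ℝ, 2 < α ∧ ∀ N : ℕ, ∃ (n : ℕ) (f : (Fin n → Bool) → Bool),
      (∃ x y, f x ≠ f y) ∧ N ≤ Crest.BoolCube.blockSensitivity f ∧
        (Crest.BoolCube.sensitivity f : ℝ) ^ α ≤ (Crest.BoolCube.blockSensitivity f : ℝ) := by
  refine amplify _ _ σ θ (base_cyc d₁ d₂ d₃ hθ h0 h1) hθ hσ ?_
  simp only [Fintype.card_prod, Fintype.card_fin]
  push_cast
  exact h2

theorem main :
    ∃ α : ℝ, 2 < α ∧ ∀ N : ℕ, ∃ (n : ℕ) (f : (Fin n → Bool) → Bool),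
      (∃ x y, f x ≠ f y) ∧ N ≤ Crest.BoolCube.blockSensitivity f ∧
        (Crest.BoolCube.sensitivity f : ℝ) ^ α ≤ (Crest.BoolCube.blockSensitivity f : ℝ) := by
  refine main_gen (10 ^ 8) (10 ^ 12) (10 ^ 16) (σ := 28 * 10 ^ 17) (θ := 9 / 10 ^ 7)
    (by norm_num) (by norm_num) ?_ ?_ ?_
  · push_cast; norm_num
  · push_cast; norm_num
  · push_cast; norm_num

end BSS
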